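import Vale.Agent.P221X.EXG.Glue
import Vale.Agent.P221.Loc.Mod

/-!
# P221X, block EXIST: connective covers of modules
-/

open CategoryTheory MonoidalCategory Limits Pretriangulated MonObj

set_option linter.unusedSectionVars false

universe u

noncomputable section

namespace Vale.Agent.P221X.EXG

open Vale.Agent.P251 Vale.Agent.P251.T Vale.Agent.P251.S Vale.Agent.P251.M
  Vale.Agent.P257.H762 Vale.Agent.P221.Loc

variable {T : Type u} [Category.{0} T] [Preadditive T] [HasZeroObject T] [HasShift T ℤ]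
  [∀ n : ℤ, (shiftFunctor T n).Additive] [Pretriangulated T] [IsTriangulated T]
  [MonoidalCategory T] [SymmetricCategory T] [TensorTriangulated T] [MonoidalClosed T]
  [HasCoproducts.{0} T] [HasProducts.{0} T] [StableCat T]
  {R : T} [MonObj R] (h0 : Conn (0 : ℤ) (𝟙_ T)) (hR : Conn (0 : ℤ) R) {k : ℤ} {Y X : T}
  {c : Y ⟶ X} (hc : IsCov k c)

include h0 hR hc

/-- **The covers of a module over a connective monoid are modules.** -/
theorem exists_mod_cov (a : ModStr R X) : ∃ m : ModStr R Y, m.IsLinear a c := by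
  have h1 := bigCell_of_conn h0 hR
  have h2 : BigCell T k (R ⊗ Y) := h1.tensor hc.cell _ (zero_add k)
  obtain ⟨m, hm⟩ := hc.exists_lift h0 h2 (R ◁ c ≫ a.act)
  exact mod_of_mono c a m hm (fun x hx => hc.ext h0 hc.cell (hx.trans zero_comp.symm))
    fun x hx => hc.ext h0 (h1.tensor h2 _ (zero_add k)) (hx.trans zero_comp.symm)

/-- linear lifts to the cover -/
theorem exists_lin_cov {m : ModStr R Y} {a : ModStr R X} (hm : m.IsLinear a c) {Z : T}
    (hZ : Conn k Z) {z : ModStr R Z} {f : Z ⟶ X} (hf : z.IsLinear a f) :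
    ∃ g : Z ⟶ Y, z.IsLinear m g ∧ g ≫ c = f := by
  have h1 := bigCell_of_conn h0 hZ
  obtain ⟨g, rfl⟩ := hc.exists_lift h0 h1 f
  exact ⟨g, lin_of_comp hm hf fun x hx => hc.ext h0
    ((bigCell_of_conn h0 hR).tensor h1 _ (zero_add k)) (hx.trans zero_comp.symm), rfl⟩

omit hc in
/-- the connective cover of a module under `R` -/
theorem exists_cov_under (a : ModStr R X) {q : R ⟶ X} (hq : (ModStr.self R).IsLinear a q) :
    ∃ (Y : T) (c : Y ⟶ X) (m : ModStr R Y) (q' : R ⟶ Y), IsCov 0 c ∧ Conn (0 : ℤ) Y ∧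
      m.IsLinear a c ∧ (ModStr.self R).IsLinear m q' ∧ q' ≫ c = q := by
  obtain ⟨Y, c, hc⟩ := exists_cov (0 : ℤ) X
  obtain ⟨m, hm⟩ := exists_mod_cov h0 hR hc a
  obtain ⟨q', h1, h2⟩ := exists_lin_cov h0 hR hc hm hR hq
  exact ⟨Y, c, m, q', hc, BigCell.conn' h0 hc.cell, hm, h1, h2⟩

end Vale.Agent.P221X.EXG
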