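import Vale.Agent.P251.S.LocMod
import Vale.Agent.P251.S.ModTens
import Vale.Agent.P251.S.KeyLemma

/-!
# P221X, block EXIST: fibres and homotopy pullbacks of modules

* `Van W B` : all maps `W⟦1⟧ ⟶ B` vanish;
* `mod_of_mono`, `exists_mod_fib`, `lin_of_comp` : module structures on fibres;
* `HPB f f'` : homotopy pullbacks, `HPB.map`, `HPB.keq`, `HPB.exists_mod`, `HPB.exists_lin`.
-/

open CategoryTheory MonoidalCategory Limits Pretriangulated MonObj

set_option linter.unusedSectionVars false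

universe v u

noncomputable section

namespace Vale.Agent.P221X.EXG

open Vale.Agent.P251 Vale.Agent.P251.T Vale.Agent.P251.S

variable {T : Type u} [Category.{v} T] [Preadditive T] [HasZeroObject T] [HasShift T ℤ]
  [∀ n : ℤ, (shiftFunctor T n).Additive] [Pretriangulated T]

/-- all maps `W⟦1⟧ ⟶ B` vanish -/
def Van (W B : T) : Prop := ∀ f : W⟦(1 : ℤ)⟧ ⟶ B, f = 0

theorem Van.retract {W W' B : T} (h : Van W B) (s : W' ⟶ W) (r : W ⟶ W') (hs : s ≫ r = 𝟙 W') :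
    Van W' B := fun f => by
  rw [← Category.id_comp f, ← CategoryTheory.Functor.map_id, ← hs, Functor.map_comp,
    Category.assoc, h (_ ≫ f), comp_zero]

theorem Van.iso {W W' B : T} (h : Van W B) (e : W' ≅ W) : Van W' B :=
  h.retract e.hom e.inv e.hom_inv_id

theorem Van.retract' {W B B' : T} (h : Van W B) (s : B' ⟶ B) (r : B ⟶ B') (hs : s ≫ r = 𝟙 B') :
    Van W B' := fun f => by
  rw [← Category.comp_id f, ← hs, ← Category.assoc, h (f ≫ s), zero_comp]

section tri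

variable {F A B : T} {i : F ⟶ A} {g : A ⟶ B} {d : B ⟶ F⟦(1 : ℤ)⟧}
  (hT : Triangle.mk i g d ∈ distTriang T)

include hT

theorem inj_of_surj {W : T} (h : ∀ z : W⟦(1 : ℤ)⟧ ⟶ B, ∃ x, z = x ≫ g) (y : W ⟶ F)
    (hy : y ≫ i = 0) : y = 0 := by
  obtain ⟨z, hz⟩ : ∃ z : W⟦(1 : ℤ)⟧ ⟶ B, y⟦(1 : ℤ)⟧' = z ≫ d :=
    Triangle.coyoneda_exact₁ _ hT _ (by
      change y⟦(1 : ℤ)⟧' ≫ i⟦(1 : ℤ)⟧' = 0
      rw [← Functor.map_comp, hy, Functor.map_zero])
  obtain ⟨x, rfl⟩ := h z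
  have h0 : g ≫ d = 0 := comp_distTriang_mor_zero₂₃ _ hT
  rw [Category.assoc, h0, comp_zero] at hz
  exact (shiftFunctor T (1 : ℤ)).map_injective (hz.trans (Functor.map_zero _ _ _).symm)

theorem inj_of_van {W : T} (h : Van W B) (y : W ⟶ F) (hy : y ≫ i = 0) : y = 0 :=
  inj_of_surj hT (fun z => ⟨0, by rw [h z, zero_comp]⟩) y hy

end tri

/-- A homotopy pullback of `f`, `f'`. -/
structure HPB {A A' B : T} (f : A ⟶ B) (f' : A' ⟶ B) where
  P : T
  S : T
  j : P ⟶ S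
  fst : S ⟶ A
  snd : S ⟶ A'
  inl : A ⟶ S
  inr : A' ⟶ S
  inl_fst : inl ≫ fst = 𝟙 A
  inl_snd : inl ≫ snd = 0
  inr_fst : inr ≫ fst = 0
  inr_snd : inr ≫ snd = 𝟙 A'
  total : fst ≫ inl + snd ≫ inr = 𝟙 S
  d : B ⟶ P⟦(1 : ℤ)⟧
  dist : Triangle.mk j (fst ≫ f - snd ≫ f') d ∈ distTriang T

theorem exists_hpb {A A' B : T} (f : A ⟶ B) (f' : A' ⟶ B) : Nonempty (HPB f f') := by
  obtain ⟨P, j, d, h⟩ := distinguished_cocone_triangle₁
    ((biprod.fst : A ⊞ A' ⟶ A) ≫ f - biprod.snd ≫ f')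
  exact ⟨⟨P, A ⊞ A', j, biprod.fst, biprod.snd, biprod.inl, biprod.inr, biprod.inl_fst,
    biprod.inl_snd, biprod.inr_fst, biprod.inr_snd, biprod.total, d, h⟩⟩

namespace HPB

variable {A A' B : T} {f : A ⟶ B} {f' : A' ⟶ B} (H : HPB f f')

/-- the first projection -/
def i : H.P ⟶ A := H.j ≫ H.fst

/-- the second projection -/
def i' : H.P ⟶ A' := H.j ≫ H.snd

/-- the map into the sum -/
def pair {W : T} (x : W ⟶ A) (x' : W ⟶ A') : W ⟶ H.S := x ≫ H.inl + x' ≫ H.inr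

theorem pair_fst {W : T} (x : W ⟶ A) (x' : W ⟶ A') : H.pair x x' ≫ H.fst = x := by
  rw [pair, Preadditive.add_comp, Category.assoc, Category.assoc, H.inl_fst, H.inr_fst, comp_zero,
    add_zero, Category.comp_id]

theorem pair_snd {W : T} (x : W ⟶ A) (x' : W ⟶ A') : H.pair x x' ≫ H.snd = x' := by
  rw [pair, Preadditive.add_comp, Category.assoc, Category.assoc, H.inl_snd, H.inr_snd, comp_zero,
    zero_add, Category.comp_id]

theorem pair_g {W : T} (x : W ⟶ A) (x' : W ⟶ A') :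
    H.pair x x' ≫ (H.fst ≫ f - H.snd ≫ f') = x ≫ f - x' ≫ f' := by
  rw [Preadditive.comp_sub, ← Category.assoc, ← Category.assoc, pair_fst, pair_snd]

theorem extS {W : T} {y y' : W ⟶ H.S} (h : y ≫ H.fst = y' ≫ H.fst)
    (h' : y ≫ H.snd = y' ≫ H.snd) : y = y' := by
  rw [← Category.comp_id y, ← Category.comp_id y', ← H.total, Preadditive.comp_add,
    Preadditive.comp_add, reassoc_of% h, reassoc_of% h']

theorem comm : H.i ≫ f = H.i' ≫ f' := by
  have h : H.j ≫ (H.fst ≫ f - H.snd ≫ f') = 0 := comp_distTriang_mor_zero₁₂ _ H.dist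
  rwa [Preadditive.comp_sub, sub_eq_zero, ← Category.assoc, ← Category.assoc] at h

theorem exists_lift {W : T} (x : W ⟶ A) (x' : W ⟶ A') (h : x ≫ f = x' ≫ f') :
    ∃ y : W ⟶ H.P, y ≫ H.i = x ∧ y ≫ H.i' = x' := by
  obtain ⟨y, hy⟩ : ∃ y : W ⟶ H.P, H.pair x x' = y ≫ H.j :=
    Triangle.coyoneda_exact₂ _ H.dist _ ((H.pair_g x x').trans (sub_eq_zero.2 h))
  exact ⟨y, by rw [i, ← Category.assoc, ← hy, pair_fst], by
    rw [i', ← Category.assoc, ← hy, pair_snd]⟩

theorem j_zero {W : T} {y : W ⟶ H.P} (h : y ≫ H.i = 0) (h' : y ≫ H.i' = 0) : y ≫ H.j = 0 :=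
  H.extS (by rw [Category.assoc, zero_comp]; exact h) (by rw [Category.assoc, zero_comp]; exact h')

theorem eq_zero {W : T} (hs : ∀ z : W⟦(1 : ℤ)⟧ ⟶ B, ∃ x x', z = x ≫ f - x' ≫ f') (y : W ⟶ H.P)
    (h : y ≫ H.i = 0) (h' : y ≫ H.i' = 0) : y = 0 :=
  inj_of_surj H.dist (fun z => by
    obtain ⟨x, x', rfl⟩ := hs z
    exact ⟨_, (H.pair_g x x').symm⟩) y (H.j_zero h h')

theorem eq_zero_of_van {W : T} (hs : Van W B) (y : W ⟶ H.P) (h : y ≫ H.i = 0)
    (h' : y ≫ H.i' = 0) : y = 0 := inj_of_van H.dist hs y (H.j_zero h h')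

/-- the image under an exact functor -/
def map (G : T ⥤ T) [G.CommShift ℤ] [G.IsTriangulated] : HPB (G.map f) (G.map f') where
  P := G.obj H.P
  S := G.obj H.S
  j := G.map H.j
  fst := G.map H.fst
  snd := G.map H.snd
  inl := G.map H.inl
  inr := G.map H.inr
  inl_fst := by rw [← G.map_comp, H.inl_fst, G.map_id]
  inl_snd := by rw [← G.map_comp, H.inl_snd, G.map_zero]
  inr_fst := by rw [← G.map_comp, H.inr_fst, G.map_zero]
  inr_snd := by rw [← G.map_comp, H.inr_snd, G.map_id]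
  total := by rw [← G.map_comp, ← G.map_comp, ← G.map_add, H.total, G.map_id]
  d := G.map H.d ≫ (G.commShiftIso (1 : ℤ)).hom.app _
  dist := by
    rw [← G.map_comp, ← G.map_comp, ← G.map_sub]
    exact G.map_distinguished _ H.dist

theorem map_i (G : T ⥤ T) [G.CommShift ℤ] [G.IsTriangulated] : (H.map G).i = G.map H.i :=
  (G.map_comp _ _).symm

theorem map_i' (G : T ⥤ T) [G.CommShift ℤ] [G.IsTriangulated] : (H.map G).i' = G.map H.i' :=
  (G.map_comp _ _).symm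

theorem isIso_i' [IsIso f] : IsIso H.i' := by
  obtain ⟨y, h1, h2⟩ := H.exists_lift (f' ≫ inv f) (𝟙 A') (by simp)
  refine ⟨y, ?_, h2⟩
  rw [← sub_eq_zero]
  refine H.eq_zero (fun z => ⟨z ≫ inv f, 0, by simp⟩) _ ?_ ?_
  · rw [Preadditive.sub_comp, Category.assoc, h1, ← Category.assoc, ← H.comm]
    simp
  · rw [Preadditive.sub_comp, Category.assoc, h2]
    simp

theorem isIso_i [IsIso f'] : IsIso H.i := by
  obtain ⟨y, h1, h2⟩ := H.exists_lift (𝟙 A) (f ≫ inv f') (by simp)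
  refine ⟨y, ?_, h1⟩
  rw [← sub_eq_zero]
  refine H.eq_zero (fun z => ⟨0, -(z ≫ inv f'), by simp⟩) _ ?_ ?_
  · rw [Preadditive.sub_comp, Category.assoc, h1]
    simp
  · rw [Preadditive.sub_comp, Category.assoc, h2, ← Category.assoc, H.comm]
    simp

end HPB

variable [MonoidalCategory T] [SymmetricCategory T] [TensorTriangulated T]

theorem Van.of_keq {K W W' B : T} (h : Van W' B) {f : W ⟶ W'} (hf : KEq K f)
    (hB : IsLocal K B) : Van W B := fun z => by
  rw [← (hf.shift 1).comp_ext hB z, h ((hf.shift 1).ext hB z), comp_zero]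

theorem Van.of_keq' {K W W' B : T} (h : Van W B) {f : W ⟶ W'} (hf : KEq K f)
    (hB : IsLocal K B) : Van W' B := fun z =>
  (hf.shift 1).hom_ext hB (by rw [h (_ ≫ z), comp_zero])

theorem HPB.keq' {A A' B K : T} {f : A ⟶ B} {f' : A' ⟶ B} (H : HPB f f') (h : KEq K f) :
    KEq K H.i' := by
  have : IsIso ((tensorLeft K).map f) := h
  have h1 := (H.map (tensorLeft K)).isIso_i'
  rwa [H.map_i'] at h1

theorem HPB.keq {A A' B K : T} {f : A ⟶ B} {f' : A' ⟶ B} (H : HPB f f') (h : KEq K f') :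
    KEq K H.i := by
  have : IsIso ((tensorLeft K).map f') := h
  have h1 := (H.map (tensorLeft K)).isIso_i
  rwa [H.map_i] at h1

variable {R : T} [MonObj R]

/-- a lift of the action along a map which is injective on the relevant groups -/
theorem mod_of_mono {F A : T} (i : F ⟶ A) (a : ModStr R A) (m : R ⊗ F ⟶ F)
    (hm : m ≫ i = R ◁ i ≫ a.act) (h0 : ∀ x : F ⟶ F, x ≫ i = 0 → x = 0)
    (h2 : ∀ x : R ⊗ (R ⊗ F) ⟶ F, x ≫ i = 0 → x = 0) : ∃ b : ModStr R F, b.IsLinear a i := by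
  refine ⟨⟨m, ?_, ?_⟩, hm⟩
  · rw [← cancel_epi (λ_ F).inv, Iso.inv_hom_id, ← sub_eq_zero]
    apply h0
    rw [Preadditive.sub_comp, Category.assoc, Category.assoc, hm, ← whisker_exchange_assoc,
      a.one_act, leftUnitor_naturality, Iso.inv_hom_id_assoc, Category.id_comp, sub_self]
  · rw [← cancel_epi (α_ R R F).inv, Iso.inv_hom_id_assoc, ← sub_eq_zero]
    apply h2
    rw [Preadditive.sub_comp, Category.assoc, Category.assoc, Category.assoc, hm,
      ← whisker_exchange_assoc, a.mul_act, ← MonoidalCategory.whiskerLeft_comp_assoc R m, hm,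
      associator_naturality_right_assoc, Iso.inv_hom_id_assoc,
      MonoidalCategory.whiskerLeft_comp_assoc, sub_self]

theorem lin_of_comp {Z F A : T} {z : ModStr R Z} {b : ModStr R F} {a : ModStr R A} {i : F ⟶ A}
    (hi : b.IsLinear a i) {f : Z ⟶ F} (hf : z.IsLinear a (f ≫ i))
    (h : ∀ x : R ⊗ Z ⟶ F, x ≫ i = 0 → x = 0) : z.IsLinear b f := by
  rw [ModStr.IsLinear, ← sub_eq_zero]
  apply h
  rw [Preadditive.sub_comp, Category.assoc, Category.assoc, hf, hi,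
    MonoidalCategory.whiskerLeft_comp_assoc, sub_self]

/-- **The fibre of a linear map is a module.** -/
theorem exists_mod_fib {F A B : T} {i : F ⟶ A} {g : A ⟶ B} {d : B ⟶ F⟦(1 : ℤ)⟧}
    (hT : Triangle.mk i g d ∈ distTriang T) {a : ModStr R A} {b : ModStr R B}
    (hg : a.IsLinear b g) (h0 : Van F B) (h2 : Van (R ⊗ (R ⊗ F)) B) :
    ∃ m : ModStr R F, m.IsLinear a i := by
  have h1 : i ≫ g = 0 := comp_distTriang_mor_zero₁₂ _ hT
  obtain ⟨m, hm⟩ : ∃ m : R ⊗ F ⟶ F, R ◁ i ≫ a.act = m ≫ i :=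
    Triangle.coyoneda_exact₂ _ hT _ (by
      change (R ◁ i ≫ a.act) ≫ g = 0
      rw [Category.assoc, hg, ← MonoidalCategory.whiskerLeft_comp_assoc, h1,
        MonoidalPreadditive.whiskerLeft_zero, zero_comp])
  exact mod_of_mono i a m hm.symm (inj_of_van hT h0) (inj_of_van hT h2)

theorem lin_sub {A B : T} {a : ModStr R A} {b : ModStr R B} {f g : A ⟶ B} (hf : a.IsLinear b f)
    (hg : a.IsLinear b g) : a.IsLinear b (f - g) := by
  have h : R ◁ (f - g) = R ◁ f - R ◁ g := (tensorLeft R).map_sub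
  rw [ModStr.IsLinear, Preadditive.comp_sub, hf, hg, h, Preadditive.sub_comp]

namespace HPB

variable {A A' B : T} {f : A ⟶ B} {f' : A' ⟶ B} (H : HPB f f') {a : ModStr R A}
  {a' : ModStr R A'} {b : ModStr R B}

theorem exists_modS (a : ModStr R A) (a' : ModStr R A') :
    ∃ s : ModStr R H.S, s.IsLinear a H.fst ∧ s.IsLinear a' H.snd := by
  have h1 := H.pair_fst (R ◁ H.fst ≫ a.act) (R ◁ H.snd ≫ a'.act)
  have h2 := H.pair_snd (R ◁ H.fst ≫ a.act) (R ◁ H.snd ≫ a'.act)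
  refine ⟨⟨H.pair (R ◁ H.fst ≫ a.act) (R ◁ H.snd ≫ a'.act), H.extS ?_ ?_, H.extS ?_ ?_⟩, h1, h2⟩
  · rw [Category.assoc, h1, ← whisker_exchange_assoc, a.one_act, leftUnitor_naturality]
  · rw [Category.assoc, h2, ← whisker_exchange_assoc, a'.one_act, leftUnitor_naturality]
  · rw [Category.assoc, Category.assoc, Category.assoc, h1, ← whisker_exchange_assoc, a.mul_act,
      ← MonoidalCategory.whiskerLeft_comp_assoc R (H.pair _ _), h1,
      associator_naturality_right_assoc, MonoidalCategory.whiskerLeft_comp_assoc]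
  · rw [Category.assoc, Category.assoc, Category.assoc, h2, ← whisker_exchange_assoc, a'.mul_act,
      ← MonoidalCategory.whiskerLeft_comp_assoc R (H.pair _ _), h2,
      associator_naturality_right_assoc, MonoidalCategory.whiskerLeft_comp_assoc]

/-- **The homotopy pullback of linear maps is a module.** -/
theorem exists_mod (hf : a.IsLinear b f) (hf' : a'.IsLinear b f') (h0 : Van H.P B)
    (h2 : Van (R ⊗ (R ⊗ H.P)) B) : ∃ m : ModStr R H.P, m.IsLinear a H.i ∧ m.IsLinear a' H.i' := by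
  obtain ⟨s, h1, h1'⟩ := H.exists_modS a a'
  obtain ⟨m, hm⟩ := exists_mod_fib H.dist (lin_sub (h1.comp hf) (h1'.comp hf')) h0 h2
  exact ⟨m, hm.comp h1, hm.comp h1'⟩

theorem lin_of {m : ModStr R H.P} (hm : m.IsLinear a H.i) (hm' : m.IsLinear a' H.i') {Z : T}
    {z : ModStr R Z} {y : Z ⟶ H.P} (h : z.IsLinear a (y ≫ H.i)) (h' : z.IsLinear a' (y ≫ H.i'))
    (hZ : Van (R ⊗ Z) B) : z.IsLinear m y := by
  rw [ModStr.IsLinear, ← sub_eq_zero]
  refine H.eq_zero_of_van hZ _ ?_ ?_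
  · rw [Preadditive.sub_comp, Category.assoc, Category.assoc, h, hm,
      MonoidalCategory.whiskerLeft_comp_assoc, sub_self]
  · rw [Preadditive.sub_comp, Category.assoc, Category.assoc, h', hm',
      MonoidalCategory.whiskerLeft_comp_assoc, sub_self]

/-- linear lifts -/
theorem exists_lin {m : ModStr R H.P} (hm : m.IsLinear a H.i) (hm' : m.IsLinear a' H.i') {Z : T}
    {z : ModStr R Z} {x : Z ⟶ A} {x' : Z ⟶ A'} (hx : z.IsLinear a x) (hx' : z.IsLinear a' x')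
    (h : x ≫ f = x' ≫ f') (hZ : Van (R ⊗ Z) B) :
    ∃ y : Z ⟶ H.P, z.IsLinear m y ∧ y ≫ H.i = x ∧ y ≫ H.i' = x' := by
  obtain ⟨y, rfl, rfl⟩ := H.exists_lift x x' h
  exact ⟨y, H.lin_of hm hm' hx hx' hZ, rfl, rfl⟩

end HPB

end Vale.Agent.P221X.EXG
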