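import Vale.Agent.P221X.EXG.Q0
import Vale.Agent.P221X.EXG.Cover
import Vale.Agent.P221X.EXI.QDefs
import Vale.Agent.P221X.EXQ.Defs
import Vale.Agent.P221.Loc.Pc

/-!
# P221X, block EXIST: row Q and the passage to the connective cover

* `rowQ W : RowQ W`;
* `cov_surj`, `cov_ker` : the homotopy of the cover modulo `p` in all degrees;
* `exists_bin` : the input `BIn` of the last step.
-/

open CategoryTheory MonoidalCategory Limits Pretriangulated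

set_option linter.unusedSectionVars false

universe u

noncomputable section

namespace Vale.Agent.P221X.EXI

open Vale.Agent.P251 Vale.Agent.P251.T Vale.Agent.P251.M Vale.Agent.P251.S Vale.Agent.P251.I
  Vale.Agent.P221X.TC Vale.Agent.P221X.EXG Vale.Agent.P257.H762 Vale.Agent.P221.Loc
  Vale.Agent.P221.H136

variable {T : Type u} [Category.{0} T] [Preadditive T] [HasZeroObject T] [HasShift T ℤ]
  [∀ n : ℤ, (shiftFunctor T n).Additive] [Pretriangulated T] [IsTriangulated T]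
  [MonoidalCategory T] [SymmetricCategory T] [TensorTriangulated T] [MonoidalClosed T]
  [HasCoproducts.{0} T] [HasProducts.{0} T] [StableCat T]
  {D : MUData T} {p : ℕ}

/-- **Row Q.** -/
theorem rowQ [Fact p.Prime] (W : TD.Twr D p) : RowQ W := by
  intro A R X₁ X₂ Y Φ q₁ q₂ u f H q h₂ h₁ hΦ₁ hΦ₂ hX hY
  have hd : (0 : ℤ) ≤ (p : ℤ) ^ 1 - 1 := by
    have := (Fact.out : p.Prime).one_lt
    rw [pow_one]
    omega
  have hq : q₂ ≫ u = q₁ ≫ f := by rw [← h₂, ← h₁, Category.assoc, Category.assoc, H.comm]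
  exact ⟨fun k hk hk' x => odd_hpb W.dist1 H hd hq hX.s2 hY.b1.2 hY.bY.1 hY.sY hX.o1 hY.o2M hk
    (by omega) x, surj_hpb W.dist1 H h₂ h₁ hΦ₁ hΦ₂ hX.s1 hX.k2 hY.b1.1 hX.o2 hY.kY hY.oYM⟩

section cov

variable {M : T} {i : 𝟙_ T ⟶ M} {δ : M ⟶ (𝟙_ T)⟦(1 : ℤ)⟧}
  (hM : Triangle.mk ((p : ℤ) • 𝟙 (𝟙_ T)) i δ ∈ distTriang T) (h0 : Conn (0 : ℤ) (𝟙_ T))

include hM h0 in
/-- the cover is injective on the homotopy modulo `p` -/
theorem cov_inj {k : ℤ} {Y X : T} {c : Y ⟶ X} (hc : IsCov k c) (j : ℤ) (y : Sph T j ⟶ Y ⊗ M)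
    (hy : y ≫ c ▷ M = 0) : y = 0 := by
  have hY : Conn k Y := BigCell.conn' h0 hc.cell
  rcases lt_or_ge j k with h | h
  · exact Conn.ext₃ _ (redTri_distinguished hM Y) hY (hY.mono (by omega)) j h y
  · obtain ⟨Q, g, w, hT⟩ := distinguished_cocone_triangle c
    obtain ⟨w', hT'⟩ : ∃ w', Triangle.mk (c ▷ M) (g ▷ M) w' ∈ distTriang T :=
      ⟨_, (tensorRight M).map_distinguished _ hT⟩
    refine inj_of_van hT' (fun z => ?_) y hy
    rw [← cancel_epi ((shiftFunctorAdd' T j 1 (j + 1) rfl).app (𝟙_ T)).hom, comp_zero]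
    exact zero_tensor hM (hc.cof_zero h0 hT) (j + 1) (by omega) _

include hM h0 in
theorem cov_surj {R B P : T} {c : B ⟶ P} (hc : IsCov 0 c) {g : R ⟶ B} {q : R ⟶ P}
    (hg : g ≫ c = q) (ho : ∀ k : ℤ, Odd k → 0 ≤ k → ∀ x : Sph T k ⟶ P ⊗ M, x = 0)
    (hs : Function.Surjective (He.map (q ▷ M))) (k : ℤ) (y : Sph T k ⟶ B ⊗ M) :
    ∃ u : Sph T k ⟶ R ⊗ M, u ≫ g ▷ M = y := by
  have hB : Conn (0 : ℤ) B := BigCell.conn' h0 hc.cell
  rcases lt_or_ge k 0 with h | h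
  · exact ⟨0, zero_comp.trans
      (Conn.ext₃ _ (redTri_distinguished hM B) hB (hB.mono (by omega)) k h y).symm⟩
  rcases Int.even_or_odd' k with ⟨m, rfl | rfl⟩
  · obtain ⟨a, ha⟩ := hs (He.of _ m ((seI T m).hom ≫ y ≫ c ▷ M))
    have h1 := congrArg (He.cp _ m) ha
    rw [He.cp_map, He.cp_same] at h1
    refine ⟨(seI T m).inv ≫ He.cp _ m a, sub_eq_zero.1 (cov_inj hM h0 hc _ _ ?_)⟩
    rw [Preadditive.sub_comp, Category.assoc, Category.assoc, ← comp_whiskerRight, hg, h1,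
      Iso.inv_hom_id_assoc, sub_self]
  · exact ⟨0, zero_comp.trans (cov_inj hM h0 hc _ y (ho _ ⟨m, rfl⟩ h _)).symm⟩

theorem ker_all {A R X : T} {Φ : A ⟶ R} {q : R ⟶ X} (oR : OddZero (R ⊗ M))
    (hk : ∀ a : He (R ⊗ M), He.map (q ▷ M) a = 0 → ∃ y, He.map (Φ ▷ M) y = a) (k : ℤ)
    (u : Sph T k ⟶ R ⊗ M) (hu : u ≫ q ▷ M = 0) : ∃ z : Sph T k ⟶ A ⊗ M, u = z ≫ Φ ▷ M := by
  rcases Int.even_or_odd' k with ⟨m, rfl | rfl⟩
  · obtain ⟨y, hy⟩ := hk (He.of _ m ((seI T m).hom ≫ u)) (by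
      rw [He.map_of, Category.assoc, hu, comp_zero, map_zero])
    have h1 := congrArg (He.cp _ m) hy
    rw [He.cp_map, He.cp_same] at h1
    exact ⟨(seI T m).inv ≫ He.cp _ m y, by rw [Category.assoc, h1, Iso.inv_hom_id_assoc]⟩
  · exact ⟨0, (oR _ ⟨m, rfl⟩ u).trans zero_comp.symm⟩

end cov

/-- **The input of the last step** from a module `P` under `R` with the right homotopy. -/
theorem exists_bin (W : TD.Twr D p) {R : T} [MonObj R] (h0 : Conn (0 : ℤ) (𝟙_ T))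
    (hR : Conn (0 : ℤ) R) {W₁ P X₁ : T} {v : W₁ ⟶ R} (hW : Conn (0 : ℤ) W₁) (a : ModStr R P)
    {q : R ⟶ P} (hq : (ModStr.self R).IsLinear a q) (hv : (ModStr.self R).ext v ≫ q = 0)
    (hP : POut W q) (oR : OddZero (R ⊗ W.M)) (t : P ⟶ X₁)
    (k1 : ∀ a : He (R ⊗ W.M), He.map ((q ≫ t) ▷ W.M) a = 0 →
      ∃ y, He.map ((ModStr.self R).ext v ▷ W.M) y = a) : ∃ B, Nonempty (BIn W.iM v B) := by
  obtain ⟨B, c, m, g, hc, -, -, hg, e⟩ := exists_cov_under h0 hR a hq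
  refine ⟨B, ⟨⟨m, g, hg, ?_, cov_surj W.distM h0 hc e hP.odd hP.surj, fun k u hu =>
    ker_all oR k1 k u ?_⟩⟩⟩
  · refine hc.ext h0 ((bigCell_of_conn h0 hR).tensor (bigCell_of_conn h0 hW) _ (zero_add 0)) ?_
    rw [Category.assoc, e, hv, zero_comp]
  · rw [← e, Category.assoc, comp_whiskerRight, reassoc_of% hu, zero_comp]

end Vale.Agent.P221X.EXI
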