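import Vale.Agent.P221X.EXG.Glue
import Vale.Agent.P221X.TC.Tel
import Vale.Agent.P221X.TC.EL0

/-!
# P221X, block EXIST: the homotopy of the glued module (abstract form)

* `fw_j`, `fw_exact`, `fw_inj` : the long exact sequence of `S^{2d} ⊗ V ⟶ V ⟶ V'` on `He`;
* `mv_surj`, `odd_hpb`, `surj_hpb` : the Mayer-Vietoris arguments.
-/

open CategoryTheory MonoidalCategory Limits Pretriangulated

set_option linter.unusedSectionVars false

universe u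

noncomputable section

namespace Vale.Agent.P221X.EXG

open Vale.Agent.P251 Vale.Agent.P251.T Vale.Agent.P251.M Vale.Agent.P251.S Vale.Agent.P251.I
open Vale.Agent.P251.M.EvenSpheres Vale.Agent.P221X.TC

variable {T : Type u} [Category.{0} T] [Preadditive T] [HasZeroObject T] [HasShift T ℤ]
  [∀ n : ℤ, (shiftFunctor T n).Additive] [Pretriangulated T] [IsTriangulated T]
  [MonoidalCategory T] [SymmetricCategory T] [TensorTriangulated T] [MonoidalClosed T]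
  [HasCoproducts.{0} T] [HasProducts.{0} T] [StableCat T]

/-- `S^{2j}⟦1⟧ ≅ S^{2j+1}` -/
def seS (j : ℤ) : (Se T j)⟦(1 : ℤ)⟧ ≅ Sph T (2 * j + 1) :=
  (shiftFunctor T (1 : ℤ)).mapIso (seI T j) ≪≫
    ((shiftFunctorAdd' T (2 * j) 1 (2 * j + 1) rfl).app (𝟙_ T)).symm

/-- `S^{2j-1}⟦1⟧ ≅ S^{2j}` -/
def seO {k j : ℤ} (h : k + 1 = 2 * j) : (Sph T k)⟦(1 : ℤ)⟧ ≅ Se T j :=
  ((shiftFunctorAdd' T k 1 (2 * j) h).app (𝟙_ T)).symm ≪≫ (seI T j).symm

theorem van_of_odd {Y : T} (h : OddZero Y) (j : ℤ) : Van (Se T j) Y := fun x => by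
  rw [← cancel_epi (seS j).inv, comp_zero]
  exact h _ ⟨j, rfl⟩ _

/-- the projection to degree `j` -/
def pr (Y : T) (j : ℤ) : He Y →+ He Y := (He.of Y j).comp (He.cp Y j)

theorem pr_apply {Y : T} (j : ℤ) (x : He Y) : pr Y j x = He.of Y j (He.cp Y j x) := rfl

theorem map_pr {Y Y' : T} (g : Y ⟶ Y') (j : ℤ) (x : He Y) :
    He.map g (pr Y j x) = pr Y' j (He.map g x) := by
  rw [pr_apply, pr_apply, He.map_of, He.cp_map]

section fw

variable {V V' : T} {d : ℤ} {f : Se T d ⊗ V ⟶ V} {j : V ⟶ V'}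
  {δ : V' ⟶ (Se T d ⊗ V)⟦(1 : ℤ)⟧}

/-- the shift of the degree -/
def sg (d : ℤ) (Z V : T) (k : ℤ) : (Se T k ⟶ Z ⊗ V) →+ (Se T (d + k) ⟶ Z ⊗ (Se T d ⊗ V)) :=
  AddMonoidHom.mk' (fun x => ((stdEven T).mu d k (d + k) rfl).inv ≫ Se T d ◁ x ≫ (sw _ Z V).hom)
    fun x y => by
      rw [MonoidalPreadditive.whiskerLeft_add, Preadditive.add_comp, Preadditive.comp_add]

theorem sg_bij (d : ℤ) (Z V : T) (k : ℤ) : Function.Bijective (sg d Z V k) := by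
  have : (tensorLeft (Se T d)).IsEquivalence := IsInv.equiv
  refine ⟨(injective_iff_map_eq_zero _).2 fun x hx => ?_, fun y => ?_⟩
  · change _ ≫ _ ≫ _ = 0 at hx
    rw [Preadditive.IsIso.comp_left_eq_zero, Preadditive.IsIso.comp_right_eq_zero] at hx
    exact (tensorLeft (Se T d)).map_eq_zero_iff.1 hx
  · obtain ⟨x, hx⟩ := (tensorLeft (Se T d)).map_surjective
      (((stdEven T).mu d k (d + k) rfl).hom ≫ y ≫ (sw _ Z V).inv)
    refine ⟨x, ?_⟩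
    change _ ≫ (tensorLeft (Se T d)).map x ≫ _ = _
    rw [hx]
    simp

theorem fw_sg (Z : T) (k : ℤ) (x : Se T k ⟶ Z ⊗ V) :
    fw f Z (He.of _ k x) = He.of _ (d + k) (sg d Z V k x ≫ Z ◁ f) := by
  rw [fw_of, opf]
  congr 1
  change _ = (_ ≫ _ ≫ _) ≫ _
  simp only [Category.assoc]

theorem cp_fw (Z : T) (k : ℤ) (x : He (Z ⊗ V)) :
    He.cp _ (d + k) (fw f Z x) = sg d Z V k (He.cp _ k x) ≫ Z ◁ f :=
  He.cp_hom (ψ := fun k => (Preadditive.rightComp _ (Z ◁ f)).comp (sg d Z V k)) (fw_sg Z) k x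

theorem fw_pr (Z : T) (k : ℤ) (x : He (Z ⊗ V)) :
    fw f Z (pr _ k x) = pr _ (d + k) (fw f Z x) := by
  rw [pr_apply, pr_apply, fw_sg, cp_fw]

theorem iter_pr (Z : T) (n : ℕ) : ∀ (k : ℤ) (x : He (Z ⊗ V)),
    (fw f Z)^[n] (pr _ k x) = pr _ (k + n * d) ((fw f Z)^[n] x) := by
  induction n with
  | zero => intro k x; simp
  | succ n ih =>
    intro k x
    rw [Function.iterate_succ_apply, Function.iterate_succ_apply, fw_pr, ih]
    congr 2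
    push_cast
    ring

theorem map_iter {Z Z' : T} (g : Z ⟶ Z') (n : ℕ) (x : He (Z ⊗ V)) :
    He.map (g ▷ V) ((fw f Z)^[n] x) = (fw f Z')^[n] (He.map (g ▷ V) x) :=
  (Function.Semiconj.iterate_right (f := He.map (g ▷ V)) (EL.map_fw f g) n x)

variable (hT : Triangle.mk f j δ ∈ distTriang T)

include hT

theorem fw_j (Z : T) (x : He (Z ⊗ V)) : He.map (Z ◁ j) (fw f Z x) = 0 := by
  have h0 : f ≫ j = 0 := comp_distTriang_mor_zero₁₂ _ hT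
  induction x using He.ind with
  | zero => simp only [map_zero]
  | of k x =>
    rw [fw_sg, He.map_of, Category.assoc, ← whiskerLeft_comp, h0,
      MonoidalPreadditive.whiskerLeft_zero, comp_zero, map_zero]
  | add x y hx hy => simp only [map_add, hx, hy, add_zero]

theorem fw_exact (Z : T) (x : He (Z ⊗ V)) (hx : He.map (Z ◁ j) x = 0) : ∃ y, x = fw f Z y := by
  obtain ⟨z, rfl⟩ := He.exact (distL Z hT).choose_spec x hx
  clear hx
  induction z using He.ind with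
  | zero => exact ⟨0, by simp only [map_zero]⟩
  | of k z =>
    obtain ⟨k, rfl⟩ : ∃ l, k = d + l := ⟨k - d, by ring⟩
    obtain ⟨y, rfl⟩ := (sg_bij d Z V k).2 z
    exact ⟨_, (He.map_of _ _ _).trans (fw_sg Z k y).symm⟩
  | add x y hx hy =>
    obtain ⟨x', hx⟩ := hx
    obtain ⟨y', hy⟩ := hy
    exact ⟨x' + y', by rw [map_add, map_add, hx, hy]⟩

theorem fw_inj {Z : T} (h : OddZero (Z ⊗ V')) : Function.Injective (fw f Z) := by
  refine (injective_iff_map_eq_zero _).2 fun x hx => He.ext_cp fun k => ?_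
  have h1 := cp_fw (f := f) Z k x
  rw [hx, map_zero] at h1
  obtain ⟨δ', h2⟩ := distL Z hT
  rw [map_zero]
  refine (injective_iff_map_eq_zero _).1 (sg_bij d Z V k).1 _ ?_
  exact inj_of_van h2 (van_of_odd h _) _ h1.symm

end fw

section mv

variable {V V' : T} {d : ℤ} {f : Se T d ⊗ V ⟶ V} {j : V ⟶ V'}
  {δ : V' ⟶ (Se T d ⊗ V)⟦(1 : ℤ)⟧} (hT : Triangle.mk f j δ ∈ distTriang T)
  {R X₁ X₂ Y : T} {u : X₂ ⟶ Y} {g : X₁ ⟶ Y} {q₁ : R ⟶ X₁} {q₂ : R ⟶ X₂}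

theorem map_map_r {A B C : T} (a : A ⟶ B) (b : B ⟶ C) (x : He (A ⊗ V)) :
    He.map (b ▷ V) (He.map (a ▷ V) x) = He.map ((a ≫ b) ▷ V) x := by
  rw [He.map_map, comp_whiskerRight]

include hT

/-- `π (X₂ ⊗ V) ⊕ π (X₁ ⊗ V) ⟶ π (Y ⊗ V)` is onto in the degrees `≥ 0` -/
theorem mv_surj (hd : 0 ≤ d) (hq : q₂ ≫ u = q₁ ≫ g)
    (s2 : ∀ k ≥ (0 : ℤ), ∀ x : Se T k ⟶ X₂ ⊗ V', ∃ a : Se T k ⟶ R ⊗ V,
      a ≫ q₂ ▷ V ≫ X₂ ◁ j = x)
    (b1 : Function.Surjective (fw f X₁)) (bY : Function.Injective (fw f Y))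
    (sY : ∀ y : He (Y ⊗ V), ∃ (n : ℕ) (x : He (X₂ ⊗ V)), (fw f Y)^[n] y = He.map (u ▷ V) x)
    {m : ℤ} (hm : 0 ≤ m) (y : Se T m ⟶ Y ⊗ V) :
    ∃ x₂ x₁, y = x₂ ≫ u ▷ V - x₁ ≫ g ▷ V := by
  have H : ∀ (n : ℕ) (y : He (Y ⊗ V)) (x : He (X₂ ⊗ V)), (fw f Y)^[n] y = He.map (u ▷ V) x →
      ∃ x₂ x₁, He.cp _ m y = x₂ ≫ u ▷ V - x₁ ≫ g ▷ V := by
    intro n
    induction n with
    | zero =>
      intro y x h
      obtain rfl : y = _ := h
      exact ⟨He.cp _ m x, 0, by rw [He.cp_map, zero_comp, sub_zero]⟩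
    | succ n ih =>
      intro y x h
      obtain ⟨a, ha⟩ := s2 (m + (n + 1 : ℕ) * d) (by positivity) (He.cp _ _ x ≫ X₂ ◁ j)
      obtain ⟨x', hx'⟩ := fw_exact hT X₂ (pr _ (m + (n + 1 : ℕ) * d) x -
          He.map (q₂ ▷ V) (He.of _ _ a)) (by
        rw [map_sub, pr_apply, He.map_of, He.map_of, He.map_of, Category.assoc, ha, sub_self])
      obtain ⟨z, hz⟩ := (b1.iterate (n + 1)) (He.map (q₁ ▷ V) (He.of _ _ a))
      have h1 : (fw f Y)^[n + 1] (pr _ m y - He.map (g ▷ V) z) =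
          fw f Y (He.map (u ▷ V) x') := by
        rw [iterate_map_sub, iter_pr, h, ← map_pr, ← map_iter, hz, map_map_r, ← hq, ← map_map_r,
          ← map_sub, hx', EL.map_fw]
      rw [Function.iterate_succ_apply'] at h1
      obtain ⟨x₂, x₁, h2⟩ := ih _ _ (bY h1)
      rw [map_sub, pr_apply, He.cp_same, He.cp_map, sub_eq_iff_eq_add] at h2
      exact ⟨x₂, x₁ - He.cp _ m z, by rw [h2, Preadditive.sub_comp]; abel⟩
  obtain ⟨n, x, h⟩ := sY (He.of _ m y)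
  have := H n _ x h
  rwa [He.cp_same] at this

/-- (P1) the odd homotopy of `P ⊗ V` vanishes in the degrees `≥ -1` -/
theorem odd_hpb (H : HPB u g) (hd : 0 ≤ d) (hq : q₂ ≫ u = q₁ ≫ g)
    (s2 : ∀ k ≥ (0 : ℤ), ∀ x : Se T k ⟶ X₂ ⊗ V', ∃ a : Se T k ⟶ R ⊗ V,
      a ≫ q₂ ▷ V ≫ X₂ ◁ j = x)
    (b1 : Function.Surjective (fw f X₁)) (bY : Function.Injective (fw f Y))
    (sY : ∀ y : He (Y ⊗ V), ∃ (n : ℕ) (x : He (X₂ ⊗ V)), (fw f Y)^[n] y = He.map (u ▷ V) x)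
    (o1 : OddZero (X₁ ⊗ V)) (o2 : OddZero (X₂ ⊗ V)) {k : ℤ} (hk : Odd k) (hk' : -1 ≤ k)
    (x : Sph T k ⟶ H.P ⊗ V) : x = 0 := by
  obtain ⟨m, hm⟩ : ∃ m, k + 1 = 2 * m := by
    obtain ⟨m, rfl⟩ := hk
    exact ⟨m + 1, by ring⟩
  refine (H.map (tensorRight V)).eq_zero (fun z => ?_) x (o2 k hk _) (o1 k hk _)
  obtain ⟨x₂, x₁, h⟩ := mv_surj hT hd hq s2 b1 bY sY (show 0 ≤ m by omega) ((seO hm).inv ≫ z)
  refine ⟨(seO hm).hom ≫ x₂, (seO hm).hom ≫ x₁, ?_⟩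
  rw [Category.assoc, Category.assoc, ← Preadditive.comp_sub]
  exact (Iso.inv_comp_eq _).1 h

/-- (P2) the map to the even homotopy of `P ⊗ V` is onto -/
theorem surj_hpb (H : HPB u g) {q : R ⟶ H.P} (h₂ : q ≫ H.i = q₂) (h₁ : q ≫ H.i' = q₁)
    {A : T} {Φ : A ⟶ R} (hΦ₁ : Φ ≫ q₁ = 0) (hΦ₂ : Φ ≫ q₂ = 0)
    (s1 : ∀ x : He (X₁ ⊗ V), ∃ (n : ℕ) (a : He (R ⊗ V)), (fw f X₁)^[n] x = He.map (q₁ ▷ V) a)
    (k2 : ∀ a : He (R ⊗ V), He.map (q₂ ▷ V ≫ X₂ ◁ j) a = 0 →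
      ∃ a' y, a = fw f R a' + He.map (Φ ▷ V) y)
    (b1 : Function.Injective (fw f X₁)) (o2 : OddZero (X₂ ⊗ V'))
    (kY : ∀ x : He (X₂ ⊗ V), He.map (u ▷ V) x = 0 → ∃ n : ℕ, (fw f X₂)^[n] x = 0)
    (oY : OddZero (Y ⊗ V)) : Function.Surjective (He.map (q ▷ V)) := by
  have b2 := fw_inj hT o2
  have hz : ∀ {B : T} (y : He (A ⊗ V)), He.map ((0 : A ⟶ B) ▷ V) y = 0 := fun y => by
    rw [MonoidalPreadditive.zero_whiskerRight, He.map_zero']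
  intro x
  have K : ∀ (n : ℕ) (a : He (R ⊗ V)),
      (fw f X₁)^[n] (He.map (H.i' ▷ V) x) = He.map (q₁ ▷ V) a →
      (fw f X₂)^[n] (He.map (H.i ▷ V) x) = He.map (q₂ ▷ V) a →
      ∃ a, He.map (q ▷ V) a = x := by
    intro n
    induction n with
    | zero =>
      intro a e₁ e₂
      refine ⟨a, He.ext_cp fun k => ?_⟩
      rw [← sub_eq_zero, ← map_sub]
      refine (H.map (tensorRight V)).eq_zero_of_van (van_of_odd oY k) _ ?_ ?_
      · rw [H.map_i]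
        refine (He.cp_map (H.i ▷ V) k _).symm.trans ?_
        rw [map_sub, map_map_r, h₂, ← e₂, Function.iterate_zero_apply, sub_self, map_zero]
      · rw [H.map_i']
        refine (He.cp_map (H.i' ▷ V) k _).symm.trans ?_
        rw [map_sub, map_map_r, h₁, ← e₁, Function.iterate_zero_apply, sub_self, map_zero]
    | succ n ih =>
      intro a e₁ e₂
      rw [Function.iterate_succ_apply'] at e₁ e₂
      obtain ⟨a', y, rfl⟩ := k2 a (by rw [← He.map_map, ← e₂, fw_j hT])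
      refine ih a' (b1 ?_) (b2 ?_)
      · rw [e₁, map_add, map_map_r, hΦ₁, hz, add_zero, EL.map_fw]
      · rw [e₂, map_add, map_map_r, hΦ₂, hz, add_zero, EL.map_fw]
  obtain ⟨n, a, e₁⟩ := s1 (He.map (H.i' ▷ V) x)
  refine K n a e₁ ?_
  obtain ⟨k, hk⟩ := kY ((fw f X₂)^[n] (He.map (H.i ▷ V) x) - He.map (q₂ ▷ V) a) (by
    rw [map_sub, map_iter, map_map_r, map_map_r, H.comm, ← map_map_r, ← map_iter, e₁, map_map_r,
      ← h₁, ← h₂, Category.assoc, Category.assoc, H.comm, sub_self])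
  rw [← sub_eq_zero]
  exact b2.iterate k (hk.trans (iterate_map_zero _ _).symm)

end mv

end Vale.Agent.P221X.EXG
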