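import Vale.Agent.P221X.EXG.Q0
import Vale.Agent.P251.S.ModExt
import Vale.Agent.P251.S.ModP

/-!
# P221X, block EXIST: evenness of local objects

* `zero_of_div` : infinitely divisible maps to local objects vanish;
* `red1` : `Y` local for `M`, `Y ⊗ M` even ⟹ `Y` even;
* `red2` : `N` a module, local for `V(1)`, `N ⊗ V(1)` even ⟹ `N ⊗ M` even.
-/

open CategoryTheory MonoidalCategory Limits Pretriangulated MonObj

set_option linter.unusedSectionVars false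

universe u

noncomputable section

namespace Vale.Agent.P221X.EXG

open Vale.Agent.P251 Vale.Agent.P251.T Vale.Agent.P251.M Vale.Agent.P251.S Vale.Agent.P251.I
open Vale.Agent.P251.M.EvenSpheres Vale.Agent.P221X.TC

variable {T : Type u} [Category.{0} T] [Preadditive T] [HasZeroObject T] [HasShift T ℤ]
  [∀ n : ℤ, (shiftFunctor T n).Additive] [Pretriangulated T] [IsTriangulated T]
  [MonoidalCategory T] [SymmetricCategory T] [TensorTriangulated T] [MonoidalClosed T]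
  [HasCoproducts.{0} T] [HasProducts.{0} T] [StableCat T]

theorem zero_of_div {K N : T} (hN : IsLocal K N) {I : Type*} (Z : I → T) (x : ∀ i, Z i ⟶ N)
    (h : ∀ i, ∃ (i' : I) (t : Z i ⟶ Z i'), K ◁ t = 0 ∧ x i = t ≫ x i') (i : I) : x i = 0 := by
  choose s t h1 h2 using h
  let e : ℕ → I := fun n => Nat.rec i (fun _ j => s j) n
  obtain ⟨U⟩ := exists_tel (X := fun n => Z (e n)) (fun n => t (e n))
  obtain ⟨l, hl⟩ := U.exists_desc (fun n => x (e n)) (fun n => (h2 (e n)).symm)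
  have h3 : IsZero (K ⊗ U.obj) := (U.tensL K).isZero_of_proZero fun n =>
    ⟨1, (Category.id_comp _).trans (h1 (e n))⟩
  exact (hl 0).symm.trans (by rw [hN h3 l, comp_zero])

/-- `Y` is even if it is local and `Y / n` is even -/
theorem red_int {K Y C : T} {n : ℤ} (hK : n • 𝟙 K = 0) (hY : IsLocal K Y) {g : Y ⟶ C}
    {δ : C ⟶ Y⟦(1 : ℤ)⟧} (hT : Triangle.mk (n • 𝟙 Y) g δ ∈ distTriang T) (ho : OddZero C) :
    OddZero Y := by
  intro k hk
  refine zero_of_div hY (fun _ : Sph T k ⟶ Y => Sph T k) (fun x => x) fun x => ?_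
  obtain ⟨y, hy⟩ : ∃ y : Sph T k ⟶ Y, x = y ≫ (n • 𝟙 Y) :=
    Triangle.coyoneda_exact₂ _ hT x (ho k hk _)
  refine ⟨y, n • 𝟙 _, ?_, ?_⟩
  · rw [EL.zsmul_left, whiskerLeft_id, ← id_whiskerRight, ← EL.zsmul_right, hK,
      MonoidalPreadditive.zero_whiskerRight]
  · rw [hy, Preadditive.comp_zsmul, Preadditive.zsmul_comp, Category.comp_id, Category.id_comp]

/-- `S^k ≅ S^{2d} ⊗ S^{k-2d}` -/
def spl (d k : ℤ) : Se T d ⊗ Sph T (k - 2 * d) ≅ Sph T k :=
  tensorSph _ _ ≪≫ (shiftFunctor T (k - 2 * d)).mapIso (seI T d) ≪≫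
    ((shiftFunctorAdd' T (2 * d) (k - 2 * d) k (by ring)).app (𝟙_ T)).symm

/-- `N ⊗ V` is even if it is local and `N ⊗ V / f` is even -/
theorem red_mod {V V' : T} {d : ℤ} {f : Se T d ⊗ V ⟶ V} {j : V ⟶ V'}
    {δ : V' ⟶ (Se T d ⊗ V)⟦(1 : ℤ)⟧} (hT : Triangle.mk f j δ ∈ distTriang T) {R N K : T}
    [MonObj R] (a : ModStr R N) {w : Se T d ⟶ R} (hf : f ≫ (λ_ V).inv ≫ η[R] ▷ V = w ▷ V)
    (hK : w ▷ K = 0) (hN : IsLocal K (N ⊗ V)) (ho : OddZero (N ⊗ V')) : OddZero (N ⊗ V) := by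
  have h0 : K ◁ w = 0 := by
    rw [← cancel_mono (β_ K R).hom, BraidedCategory.braiding_naturality_right, hK, comp_zero,
      zero_comp]
  have h2 : w ▷ (N ⊗ V) ≫ (a.tensorRight V).act = (sw _ N V).hom ≫ N ◁ f := by
    rw [TD.whiskerLeft_eq a hf, TD.mulR, sw_hom]
    simp only [Category.assoc, Iso.hom_inv_id_assoc, ModStr.tensorRight]
    rw [← comp_whiskerRight, SymmetricCategory.symmetry_assoc, comp_whiskerRight,
      associator_inv_naturality_left_assoc]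
  have : (tensorLeft (Se T d)).IsEquivalence := IsInv.equiv
  intro k hk x
  rw [← (a.tensorRight V).unitMap_ext x]
  have := zero_of_div hN (fun i : Σ k : {k : ℤ // Odd k}, (Sph T k ⟶ N ⊗ V) => R ⊗ Sph T i.1)
    (fun i => (a.tensorRight V).ext i.2) ?_ ⟨⟨k, hk⟩, x⟩
  · exact (congrArg (_ ≫ ·) this).trans comp_zero
  rintro ⟨⟨k, hk⟩, x⟩
  obtain ⟨δ', h1⟩ := distL N hT
  obtain ⟨z, hz⟩ : ∃ z : Sph T k ⟶ N ⊗ (Se T d ⊗ V), x = z ≫ N ◁ f :=
    Triangle.coyoneda_exact₂ _ h1 x (ho k hk _)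
  obtain ⟨y, hy⟩ : ∃ y : Sph T (k - 2 * d) ⟶ N ⊗ V,
      Se T d ◁ y = (spl d k).hom ≫ z ≫ (sw _ N V).inv := (tensorLeft (Se T d)).map_surjective _
  refine ⟨⟨⟨k - 2 * d, hk.sub_even (even_two_mul d)⟩, y⟩,
    ((ModStr.self R).tensorRight _).ext ((spl d k).inv ≫ w ▷ _), ?_, ?_⟩
  · have h3 : K ◁ (w ▷ Sph T (k - 2 * d)) = 0 := by
      rw [← cancel_epi (α_ _ _ _).hom, ← associator_naturality_middle, h0,
        MonoidalPreadditive.zero_whiskerRight, zero_comp, comp_zero]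
    have h4 : K ◁ R ◁ ((spl d k).inv ≫ w ▷ Sph T (k - 2 * d)) = 0 := by
      rw [← cancel_mono (sw K R _).hom, sw_right, whiskerLeft_comp K, h3, comp_zero,
        MonoidalPreadditive.whiskerLeft_zero, comp_zero, zero_comp]
    rw [ModStr.ext, whiskerLeft_comp, h4, zero_comp]
  · change (a.tensorRight V).ext x = _ ≫ (a.tensorRight V).ext y
    rw [ModStr.ext_comp _ _ _ _ ((a.tensorRight V).ext_linear y)]
    congr 1
    rw [ModStr.ext, Category.assoc, ← whisker_exchange_assoc, h2, reassoc_of% hy, hz]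
    simp

variable {D : MUData T} {p : ℕ} [Fact p.Prime] (W : TD.Twr D p)

theorem loc_M {K Y : T} (h : IsLocal K Y) : IsLocal K (Y ⊗ W.M) :=
  IsLocal.ext₃ (redTri_distinguished W.distM Y) h h

theorem red1 {Y : T} (hY : IsLocal W.M Y) (ho : OddZero (Y ⊗ W.M)) : OddZero Y :=
  red_int (EL.p_M W) hY (redTri_distinguished W.distM Y) ho

theorem red2 {P N : T} [MonObj P] (b : D.R ⟶ P) [IsMonHom b] (a : ModStr P N)
    (hN : IsLocal W.V1 N) (ho : OddZero (N ⊗ W.V1)) : OddZero (N ⊗ W.M) :=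
  red_mod W.dist1 a (W.hur1 b) (TD.whisker_zero W.m2 (TD.hcls_v W.st2.tow b 1 one_lt_two))
    (loc_M W hN) ho

end Vale.Agent.P221X.EXG
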